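import Vale.Agent.P032.H169.Tops
import Vale.Agent.P032.H154.StarTop

/-!
# P032: the statements of the hand-ins, closures of the sets at the points with three indices

`v ∈ closure {w | w ∉ closure ((⋃ j, U j) \ U i)}` means `v ∈ closure (U i)` (`clo_of_pure`); the
statements of `H169/Tops.lean` with the second form.
-/

open Set Filter Topology Metric

noncomputable section

namespace Vale.Agent.P032.H154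

open Vale.Agent.P032.Six Vale.Agent.P032.S5.H843 Vale.Agent.P032.H169

theorem clo_of_pure {U : Fin 6 → Set (EuclideanSpace ℝ (Fin 2))} (hd : Dense (⋃ i, U i))
    {i : Fin 6} {v : EuclideanSpace ℝ (Fin 2)}
    (h : v ∈ closure {w | w ∉ closure ((⋃ j, U j) \ U i)}) : v ∈ closure (U i) := by
  have h1 : {w | w ∉ closure ((⋃ j, U j) \ U i)} ⊆ closure (U i) := by
    intro w hw
    have h2 : (⋃ j, U j) ⊆ U i ∪ ((⋃ j, U j) \ U i) := by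
      intro x hx
      by_cases h : x ∈ U i
      · exact Or.inl h
      · exact Or.inr ⟨hx, h⟩
    have h3 := closure_mono h2 (hd w)
    rw [closure_union] at h3
    exact h3.resolve_right hw
  exact closure_minimal h1 isClosed_closure h

/-- the sets `U i`, `i ∈ X`, suffice near `v` and `v` is in the closure of each of them -/
def TriC (U : Fin 6 → Set (EuclideanSpace ℝ (Fin 2))) (X : Set (Fin 6))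
    (v : EuclideanSpace ℝ (Fin 2)) : Prop :=
  v ∉ closure ((⋃ j, U j) \ ⋃ i ∈ X, U i) ∧ ∀ i ∈ X, v ∈ closure (U i)

theorem triC_of {U : Fin 6 → Set (EuclideanSpace ℝ (Fin 2))} (hd : Dense (⋃ i, U i))
    {X : Set (Fin 6)} {v : EuclideanSpace ℝ (Fin 2)} (h : Tri U X v) : TriC U X v :=
  ⟨h.1, fun i hi => clo_of_pure hd (h.2 i hi)⟩

/-- **degree theorem**, from the block `XDeg` -/
theorem handDegree3 (HX : XDeg) :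
    (∀ V : Fin 6 → Set (EuclideanSpace ℝ (Fin 2)), (∀ i, IsOpen (V i)) →
      (∀ i, ∀ x ∈ V i, ∀ y ∈ V i, dist x y ≠ 1) → Dense (⋃ i, V i) →
      ∃ U : Fin 6 → Set (EuclideanSpace ℝ (Fin 2)), (∀ i, V i ⊆ U i) ∧ Dense (⋃ i, U i) ∧
        ∀ i, Maximal (fun W : Set (EuclideanSpace ℝ (Fin 2)) =>
          IsOpen W ∧ ∀ x ∈ W, ∀ y ∈ W, dist x y ≠ 1) (U i)) ∧
    (∀ U : Fin 6 → Set (EuclideanSpace ℝ (Fin 2)), Dense (⋃ i, U i) →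
      (∀ i, Maximal (fun W : Set (EuclideanSpace ℝ (Fin 2)) =>
        IsOpen W ∧ ∀ x ∈ W, ∀ y ∈ W, dist x y ≠ 1) (U i)) →
      (∃ z z', dist z z' = 1 ∧
        (∀ s : Set (Fin 6), s.ncard ≤ 4 → z ∈ closure ((⋃ j, U j) \ ⋃ i ∈ s, U i)) ∧
        ∀ s : Set (Fin 6), s.ncard ≤ 3 → z' ∈ closure ((⋃ j, U j) \ ⋃ i ∈ s, U i)) ∨
      (∃ z y1 y2 y3, ∃ S S1 S2 S3 : Set (Fin 6),
        (S.ncard = 4 ∧ z ∉ closure ((⋃ j, U j) \ ⋃ i ∈ S, U i) ∧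
          ∀ s ⊂ S, z ∈ closure ((⋃ j, U j) \ ⋃ i ∈ s, U i)) ∧
        (S1.ncard = 4 ∧ y1 ∉ closure ((⋃ j, U j) \ ⋃ i ∈ S1, U i) ∧
          ∀ s ⊂ S1, y1 ∈ closure ((⋃ j, U j) \ ⋃ i ∈ s, U i)) ∧
        (S2.ncard = 4 ∧ y2 ∉ closure ((⋃ j, U j) \ ⋃ i ∈ S2, U i) ∧
          ∀ s ⊂ S2, y2 ∈ closure ((⋃ j, U j) \ ⋃ i ∈ s, U i)) ∧
        (S3.ncard = 4 ∧ y3 ∉ closure ((⋃ j, U j) \ ⋃ i ∈ S3, U i) ∧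
          ∀ s ⊂ S3, y3 ∈ closure ((⋃ j, U j) \ ⋃ i ∈ s, U i)) ∧
        dist y1 z = 1 ∧ dist y2 z = 1 ∧ dist y3 z = 1 ∧ y1 ≠ y2 ∧ y1 ≠ y3 ∧ y2 ≠ y3) ∨
      ∃ z v q, ∃ S X Y : Set (Fin 6),
        (S.ncard = 4 ∧ z ∉ closure ((⋃ j, U j) \ ⋃ i ∈ S, U i) ∧
          ∀ s ⊂ S, z ∈ closure ((⋃ j, U j) \ ⋃ i ∈ s, U i)) ∧
        X.ncard = 3 ∧ Y.ncard = 3 ∧ S ⊆ X ∪ Y ∧ v ≠ q ∧ dist v z = 1 ∧ dist q z = 1 ∧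
        (v ∉ closure ((⋃ j, U j) \ ⋃ i ∈ X, U i) ∧ ∀ i ∈ X, v ∈ closure (U i)) ∧
        q ∉ closure ((⋃ j, U j) \ ⋃ i ∈ Y, U i) ∧ ∀ i ∈ Y, q ∈ closure (U i)) :=
  ⟨ext_part, fun U hd hU => by
    rcases exists_deg2 HX hU hd with h | h | ⟨z, v, q, S, X, Y, hS, hX, hY, hs, hne, hv, hq, tX, tY⟩
    · exact Or.inl h
    · exact Or.inr (Or.inl h)
    · exact Or.inr (Or.inr ⟨z, v, q, S, X, Y, hS, hX, hY, hs, hne, hv, hq, triC_of hd tX,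
        triC_of hd tY⟩)⟩

/-- **degree theorem**, from the block `XDegC` -/
theorem handDegC3 (HX : XDegC) :
    (∀ V : Fin 6 → Set (EuclideanSpace ℝ (Fin 2)), (∀ i, IsOpen (V i)) →
      (∀ i, ∀ x ∈ V i, ∀ y ∈ V i, dist x y ≠ 1) → Dense (⋃ i, V i) →
      ∃ U : Fin 6 → Set (EuclideanSpace ℝ (Fin 2)), (∀ i, V i ⊆ U i) ∧ Dense (⋃ i, U i) ∧
        ∀ i, Maximal (fun W : Set (EuclideanSpace ℝ (Fin 2)) =>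
          IsOpen W ∧ ∀ x ∈ W, ∀ y ∈ W, dist x y ≠ 1) (U i)) ∧
    (∀ U : Fin 6 → Set (EuclideanSpace ℝ (Fin 2)), Dense (⋃ i, U i) →
      (∀ i, Maximal (fun W : Set (EuclideanSpace ℝ (Fin 2)) =>
        IsOpen W ∧ ∀ x ∈ W, ∀ y ∈ W, dist x y ≠ 1) (U i)) →
      (∃ z z', dist z z' = 1 ∧
        (∀ s : Set (Fin 6), s.ncard ≤ 4 → z ∈ closure ((⋃ j, U j) \ ⋃ i ∈ s, U i)) ∧
        ∀ s : Set (Fin 6), s.ncard ≤ 3 → z' ∈ closure ((⋃ j, U j) \ ⋃ i ∈ s, U i)) ∨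
      (∃ z y1 y2 y3, ∃ S S1 S2 S3 : Set (Fin 6),
        (S.ncard = 4 ∧ z ∉ closure ((⋃ j, U j) \ ⋃ i ∈ S, U i) ∧
          ∀ s ⊂ S, z ∈ closure ((⋃ j, U j) \ ⋃ i ∈ s, U i)) ∧
        (S1.ncard = 4 ∧ y1 ∉ closure ((⋃ j, U j) \ ⋃ i ∈ S1, U i) ∧
          ∀ s ⊂ S1, y1 ∈ closure ((⋃ j, U j) \ ⋃ i ∈ s, U i)) ∧
        (S2.ncard = 4 ∧ y2 ∉ closure ((⋃ j, U j) \ ⋃ i ∈ S2, U i) ∧
          ∀ s ⊂ S2, y2 ∈ closure ((⋃ j, U j) \ ⋃ i ∈ s, U i)) ∧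
        (S3.ncard = 4 ∧ y3 ∉ closure ((⋃ j, U j) \ ⋃ i ∈ S3, U i) ∧
          ∀ s ⊂ S3, y3 ∈ closure ((⋃ j, U j) \ ⋃ i ∈ s, U i)) ∧
        dist y1 z = 1 ∧ dist y2 z = 1 ∧ dist y3 z = 1 ∧ y1 ≠ y2 ∧ y1 ≠ y3 ∧ y2 ≠ y3) ∨
      ∃ z v q, ∃ S X : Set (Fin 6),
        (S.ncard = 4 ∧ z ∉ closure ((⋃ j, U j) \ ⋃ i ∈ S, U i) ∧
          ∀ s ⊂ S, z ∈ closure ((⋃ j, U j) \ ⋃ i ∈ s, U i)) ∧
        X.ncard = 3 ∧ dist v z = 1 ∧ dist q z = 1 ∧ dist v q < 2 ∧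
        (v ∉ closure ((⋃ j, U j) \ ⋃ i ∈ X, U i) ∧ ∀ i ∈ X, v ∈ closure (U i)) ∧
        q ∉ closure ((⋃ j, U j) \ ⋃ i ∈ Xᶜ, U i) ∧ ∀ i ∈ Xᶜ, q ∈ closure (U i)) :=
  ⟨ext_part, fun U hd hU => by
    rcases exists_degC2 HX hU hd with h | h | ⟨z, v, q, S, X, hS, hX, hv, hq, hlt, tX, tY⟩
    · exact Or.inl h
    · exact Or.inr (Or.inl h)
    · exact Or.inr (Or.inr ⟨z, v, q, S, X, hS, hX, hv, hq, hlt, triC_of hd tX,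
        triC_of hd tY⟩)⟩

/-- from the block `XSplit` -/
theorem handSplit3 (HX : XSplit) :
    (∀ V : Fin 6 → Set (EuclideanSpace ℝ (Fin 2)), (∀ i, IsOpen (V i)) →
      (∀ i, ∀ x ∈ V i, ∀ y ∈ V i, dist x y ≠ 1) → Dense (⋃ i, V i) →
      ∃ U : Fin 6 → Set (EuclideanSpace ℝ (Fin 2)), (∀ i, V i ⊆ U i) ∧ Dense (⋃ i, U i) ∧
        ∀ i, Maximal (fun W : Set (EuclideanSpace ℝ (Fin 2)) =>
          IsOpen W ∧ ∀ x ∈ W, ∀ y ∈ W, dist x y ≠ 1) (U i)) ∧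
    (∀ U : Fin 6 → Set (EuclideanSpace ℝ (Fin 2)), Dense (⋃ i, U i) →
      (∀ i, Maximal (fun W : Set (EuclideanSpace ℝ (Fin 2)) =>
        IsOpen W ∧ ∀ x ∈ W, ∀ y ∈ W, dist x y ≠ 1) (U i)) →
      (∃ z z', dist z z' = 1 ∧
        (∀ s : Set (Fin 6), s.ncard ≤ 4 → z ∈ closure ((⋃ j, U j) \ ⋃ i ∈ s, U i)) ∧
        ∀ s : Set (Fin 6), s.ncard ≤ 3 → z' ∈ closure ((⋃ j, U j) \ ⋃ i ∈ s, U i)) ∨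
      (∃ z z', ∃ S S' : Set (Fin 6), dist z z' = 1 ∧
        (S.ncard = 4 ∧ z ∉ closure ((⋃ j, U j) \ ⋃ i ∈ S, U i) ∧
          ∀ s ⊂ S, z ∈ closure ((⋃ j, U j) \ ⋃ i ∈ s, U i)) ∧
        (S'.ncard = 4 ∧ z' ∉ closure ((⋃ j, U j) \ ⋃ i ∈ S', U i) ∧
          ∀ s ⊂ S', z' ∈ closure ((⋃ j, U j) \ ⋃ i ∈ s, U i)) ∧ S ∪ S' = univ) ∨
      ∃ z v q, ∃ S X Y : Set (Fin 6),
        (S.ncard = 4 ∧ z ∉ closure ((⋃ j, U j) \ ⋃ i ∈ S, U i) ∧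
          ∀ s ⊂ S, z ∈ closure ((⋃ j, U j) \ ⋃ i ∈ s, U i)) ∧
        X.ncard = 3 ∧ Y.ncard = 3 ∧ S ⊆ X ∪ Y ∧ v ≠ q ∧ dist v z = 1 ∧ dist q z = 1 ∧
        (v ∉ closure ((⋃ j, U j) \ ⋃ i ∈ X, U i) ∧ ∀ i ∈ X, v ∈ closure (U i)) ∧
        q ∉ closure ((⋃ j, U j) \ ⋃ i ∈ Y, U i) ∧ ∀ i ∈ Y, q ∈ closure (U i)) :=
  ⟨ext_part, fun U hd hU => by
    rcases exists_split2 HX hU hd with h | h | ⟨z, v, q, S, X, Y, hS, hX, hY, hs, hne, hv, hq, tX, tY⟩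
    · exact Or.inl h
    · exact Or.inr (Or.inl h)
    · exact Or.inr (Or.inr ⟨z, v, q, S, X, Y, hS, hX, hY, hs, hne, hv, hq, triC_of hd tX,
        triC_of hd tY⟩)⟩

/-- from the block `XB` -/
theorem handComp3 (HX : XB) :
    (∀ V : Fin 6 → Set (EuclideanSpace ℝ (Fin 2)), (∀ i, IsOpen (V i)) →
      (∀ i, ∀ x ∈ V i, ∀ y ∈ V i, dist x y ≠ 1) → Dense (⋃ i, V i) →
      ∃ U : Fin 6 → Set (EuclideanSpace ℝ (Fin 2)), (∀ i, V i ⊆ U i) ∧ Dense (⋃ i, U i) ∧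
        ∀ i, Maximal (fun W : Set (EuclideanSpace ℝ (Fin 2)) =>
          IsOpen W ∧ ∀ x ∈ W, ∀ y ∈ W, dist x y ≠ 1) (U i)) ∧
    (∀ U : Fin 6 → Set (EuclideanSpace ℝ (Fin 2)), Dense (⋃ i, U i) →
      (∀ i, Maximal (fun W : Set (EuclideanSpace ℝ (Fin 2)) =>
        IsOpen W ∧ ∀ x ∈ W, ∀ y ∈ W, dist x y ≠ 1) (U i)) →
      (∃ z z', dist z z' = 1 ∧
        (∀ s : Set (Fin 6), s.ncard ≤ 4 → z ∈ closure ((⋃ j, U j) \ ⋃ i ∈ s, U i)) ∧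
        ∀ s : Set (Fin 6), s.ncard ≤ 3 → z' ∈ closure ((⋃ j, U j) \ ⋃ i ∈ s, U i)) ∨
      ∃ z v q, ∃ S X : Set (Fin 6),
        (S.ncard = 4 ∧ z ∉ closure ((⋃ j, U j) \ ⋃ i ∈ S, U i) ∧
          ∀ s ⊂ S, z ∈ closure ((⋃ j, U j) \ ⋃ i ∈ s, U i)) ∧
        X.ncard = 3 ∧ dist v z = 1 ∧ dist q z = 1 ∧ dist v q < 2 ∧
        (v ∉ closure ((⋃ j, U j) \ ⋃ i ∈ X, U i) ∧ ∀ i ∈ X, v ∈ closure (U i)) ∧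
        q ∉ closure ((⋃ j, U j) \ ⋃ i ∈ Xᶜ, U i) ∧ ∀ i ∈ Xᶜ, q ∈ closure (U i)) :=
  ⟨ext_part, fun U hd hU => by
    rcases exists_comp2 HX hU hd with h | ⟨z, v, q, S, X, hS, hX, hv, hq, hlt, tX, tY⟩
    · exact Or.inl h
    · exact Or.inr ⟨z, v, q, S, X, hS, hX, hv, hq, hlt, triC_of hd tX, triC_of hd tY⟩⟩

/-- from the block `XCov` -/
theorem handCover3 (HX : XCov) :
    (∀ V : Fin 6 → Set (EuclideanSpace ℝ (Fin 2)), (∀ i, IsOpen (V i)) →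
      (∀ i, ∀ x ∈ V i, ∀ y ∈ V i, dist x y ≠ 1) → Dense (⋃ i, V i) →
      ∃ U : Fin 6 → Set (EuclideanSpace ℝ (Fin 2)), (∀ i, V i ⊆ U i) ∧ Dense (⋃ i, U i) ∧
        ∀ i, Maximal (fun W : Set (EuclideanSpace ℝ (Fin 2)) =>
          IsOpen W ∧ ∀ x ∈ W, ∀ y ∈ W, dist x y ≠ 1) (U i)) ∧
    (∀ U : Fin 6 → Set (EuclideanSpace ℝ (Fin 2)), Dense (⋃ i, U i) →
      (∀ i, Maximal (fun W : Set (EuclideanSpace ℝ (Fin 2)) =>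
        IsOpen W ∧ ∀ x ∈ W, ∀ y ∈ W, dist x y ≠ 1) (U i)) →
      (∃ z z', dist z z' = 1 ∧
        (∀ s : Set (Fin 6), s.ncard ≤ 4 → z ∈ closure ((⋃ j, U j) \ ⋃ i ∈ s, U i)) ∧
        ∀ s : Set (Fin 6), s.ncard ≤ 3 → z' ∈ closure ((⋃ j, U j) \ ⋃ i ∈ s, U i)) ∨
      (∃ z z', ∃ S S' : Set (Fin 6), dist z z' = 1 ∧
        (S.ncard = 4 ∧ z ∉ closure ((⋃ j, U j) \ ⋃ i ∈ S, U i) ∧
          ∀ s ⊂ S, z ∈ closure ((⋃ j, U j) \ ⋃ i ∈ s, U i)) ∧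
        (S'.ncard = 4 ∧ z' ∉ closure ((⋃ j, U j) \ ⋃ i ∈ S', U i) ∧
          ∀ s ⊂ S', z' ∈ closure ((⋃ j, U j) \ ⋃ i ∈ s, U i)) ∧ S ∪ S' = univ) ∨
      ∃ z v q, ∃ S X : Set (Fin 6),
        (S.ncard = 4 ∧ z ∉ closure ((⋃ j, U j) \ ⋃ i ∈ S, U i) ∧
          ∀ s ⊂ S, z ∈ closure ((⋃ j, U j) \ ⋃ i ∈ s, U i)) ∧
        X.ncard = 3 ∧ dist v z = 1 ∧ dist q z = 1 ∧ dist v q < 2 ∧
        (v ∉ closure ((⋃ j, U j) \ ⋃ i ∈ X, U i) ∧ ∀ i ∈ X, v ∈ closure (U i)) ∧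
        q ∉ closure ((⋃ j, U j) \ ⋃ i ∈ Xᶜ, U i) ∧ ∀ i ∈ Xᶜ, q ∈ closure (U i)) :=
  ⟨ext_part, fun U hd hU => by
    rcases exists_cover2 HX hU hd with h | h | ⟨z, v, q, S, X, hS, hX, hv, hq, hlt, tX, tY⟩
    · exact Or.inl h
    · exact Or.inr (Or.inl h)
    · exact Or.inr (Or.inr ⟨z, v, q, S, X, hS, hX, hv, hq, hlt, triC_of hd tX,
        triC_of hd tY⟩)⟩

/-- from the blocks `Pair5T`, `XDegC` -/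
theorem handStarComp3 (P5 : Pair5T) (HX : XDegC) :
    (∀ V : Fin 6 → Set (EuclideanSpace ℝ (Fin 2)), (∀ i, IsOpen (V i)) →
      (∀ i, ∀ x ∈ V i, ∀ y ∈ V i, dist x y ≠ 1) → Dense (⋃ i, V i) →
      ∃ U : Fin 6 → Set (EuclideanSpace ℝ (Fin 2)), (∀ i, V i ⊆ U i) ∧ Dense (⋃ i, U i) ∧
        ∀ i, Maximal (fun W : Set (EuclideanSpace ℝ (Fin 2)) =>
          IsOpen W ∧ ∀ x ∈ W, ∀ y ∈ W, dist x y ≠ 1) (U i)) ∧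
    (∀ U : Fin 6 → Set (EuclideanSpace ℝ (Fin 2)), Dense (⋃ i, U i) →
      (∀ i, Maximal (fun W : Set (EuclideanSpace ℝ (Fin 2)) =>
        IsOpen W ∧ ∀ x ∈ W, ∀ y ∈ W, dist x y ≠ 1) (U i)) →
      (∃ z y1 y2 y3, ∃ S S1 S2 S3 : Set (Fin 6),
        (4 ≤ S.ncard ∧ z ∉ closure ((⋃ j, U j) \ ⋃ i ∈ S, U i) ∧
          ∀ s ⊂ S, z ∈ closure ((⋃ j, U j) \ ⋃ i ∈ s, U i)) ∧
        (4 ≤ S1.ncard ∧ y1 ∉ closure ((⋃ j, U j) \ ⋃ i ∈ S1, U i) ∧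
          ∀ s ⊂ S1, y1 ∈ closure ((⋃ j, U j) \ ⋃ i ∈ s, U i)) ∧
        (4 ≤ S2.ncard ∧ y2 ∉ closure ((⋃ j, U j) \ ⋃ i ∈ S2, U i) ∧
          ∀ s ⊂ S2, y2 ∈ closure ((⋃ j, U j) \ ⋃ i ∈ s, U i)) ∧
        (4 ≤ S3.ncard ∧ y3 ∉ closure ((⋃ j, U j) \ ⋃ i ∈ S3, U i) ∧
          ∀ s ⊂ S3, y3 ∈ closure ((⋃ j, U j) \ ⋃ i ∈ s, U i)) ∧
        dist y1 z = 1 ∧ dist y2 z = 1 ∧ dist y3 z = 1 ∧ y1 ≠ y2 ∧ y1 ≠ y3 ∧ y2 ≠ y3) ∨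
      ∃ z v q, ∃ S X : Set (Fin 6),
        (S.ncard = 4 ∧ z ∉ closure ((⋃ j, U j) \ ⋃ i ∈ S, U i) ∧
          ∀ s ⊂ S, z ∈ closure ((⋃ j, U j) \ ⋃ i ∈ s, U i)) ∧
        X.ncard = 3 ∧ dist v z = 1 ∧ dist q z = 1 ∧ dist v q < 2 ∧
        (v ∉ closure ((⋃ j, U j) \ ⋃ i ∈ X, U i) ∧ ∀ i ∈ X, v ∈ closure (U i)) ∧
        q ∉ closure ((⋃ j, U j) \ ⋃ i ∈ Xᶜ, U i) ∧ ∀ i ∈ Xᶜ, q ∈ closure (U i)) :=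
  ⟨ext_part, fun U hd hU => by
    rcases exists_star_comp P5 HX hU hd with h | ⟨z, v, q, S, X, hS, hX, hv, hq, -, hlt, s1, s2, t1, t2⟩
    · exact Or.inl h
    · exact Or.inr ⟨z, v, q, S, X, hS, hX, hv, hq, hlt, ⟨s1, fun i hi => clo_of_pure hd (t1 i hi)⟩,
        s2, fun i hi => clo_of_pure hd (t2 i hi)⟩⟩

/-- from the blocks `Pair5T`, `XDeg` -/
theorem handStarSplit3 (P5 : Pair5T) (HX : XDeg) :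
    (∀ V : Fin 6 → Set (EuclideanSpace ℝ (Fin 2)), (∀ i, IsOpen (V i)) →
      (∀ i, ∀ x ∈ V i, ∀ y ∈ V i, dist x y ≠ 1) → Dense (⋃ i, V i) →
      ∃ U : Fin 6 → Set (EuclideanSpace ℝ (Fin 2)), (∀ i, V i ⊆ U i) ∧ Dense (⋃ i, U i) ∧
        ∀ i, Maximal (fun W : Set (EuclideanSpace ℝ (Fin 2)) =>
          IsOpen W ∧ ∀ x ∈ W, ∀ y ∈ W, dist x y ≠ 1) (U i)) ∧
    (∀ U : Fin 6 → Set (EuclideanSpace ℝ (Fin 2)), Dense (⋃ i, U i) →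
      (∀ i, Maximal (fun W : Set (EuclideanSpace ℝ (Fin 2)) =>
        IsOpen W ∧ ∀ x ∈ W, ∀ y ∈ W, dist x y ≠ 1) (U i)) →
      (∃ z y1 y2 y3, ∃ S S1 S2 S3 : Set (Fin 6),
        (4 ≤ S.ncard ∧ z ∉ closure ((⋃ j, U j) \ ⋃ i ∈ S, U i) ∧
          ∀ s ⊂ S, z ∈ closure ((⋃ j, U j) \ ⋃ i ∈ s, U i)) ∧
        (4 ≤ S1.ncard ∧ y1 ∉ closure ((⋃ j, U j) \ ⋃ i ∈ S1, U i) ∧
          ∀ s ⊂ S1, y1 ∈ closure ((⋃ j, U j) \ ⋃ i ∈ s, U i)) ∧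
        (4 ≤ S2.ncard ∧ y2 ∉ closure ((⋃ j, U j) \ ⋃ i ∈ S2, U i) ∧
          ∀ s ⊂ S2, y2 ∈ closure ((⋃ j, U j) \ ⋃ i ∈ s, U i)) ∧
        (4 ≤ S3.ncard ∧ y3 ∉ closure ((⋃ j, U j) \ ⋃ i ∈ S3, U i) ∧
          ∀ s ⊂ S3, y3 ∈ closure ((⋃ j, U j) \ ⋃ i ∈ s, U i)) ∧
        dist y1 z = 1 ∧ dist y2 z = 1 ∧ dist y3 z = 1 ∧ y1 ≠ y2 ∧ y1 ≠ y3 ∧ y2 ≠ y3) ∨
      ∃ z v q, ∃ S X Y : Set (Fin 6),
        (S.ncard = 4 ∧ z ∉ closure ((⋃ j, U j) \ ⋃ i ∈ S, U i) ∧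
          ∀ s ⊂ S, z ∈ closure ((⋃ j, U j) \ ⋃ i ∈ s, U i)) ∧
        X.ncard = 3 ∧ Y.ncard = 3 ∧ S ⊆ X ∪ Y ∧ v ≠ q ∧ dist v z = 1 ∧ dist q z = 1 ∧
        (v ∉ closure ((⋃ j, U j) \ ⋃ i ∈ X, U i) ∧ ∀ i ∈ X, v ∈ closure (U i)) ∧
        q ∉ closure ((⋃ j, U j) \ ⋃ i ∈ Y, U i) ∧ ∀ i ∈ Y, q ∈ closure (U i)) :=
  ⟨ext_part, fun U hd hU => by
    rcases exists_star_split P5 HX hU hd with h |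
      ⟨z, v, q, S, X, Y, hS, hX, hY, hne, hv, hq, s1, s2, t1, t2, hs⟩
    · exact Or.inl h
    · exact Or.inr ⟨z, v, q, S, X, Y, hS, hX, hY, hs, hne, hv, hq,
        ⟨s1, fun i hi => clo_of_pure hd (t1 i hi)⟩, s2, fun i hi => clo_of_pure hd (t2 i hi)⟩⟩

/-- from the blocks `NoCompT`, `XDegC` -/
theorem handPairStar3 (NC : NoCompT) (HX : XDegC) :
    (∀ V : Fin 6 → Set (EuclideanSpace ℝ (Fin 2)), (∀ i, IsOpen (V i)) →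
      (∀ i, ∀ x ∈ V i, ∀ y ∈ V i, dist x y ≠ 1) → Dense (⋃ i, V i) →
      ∃ U : Fin 6 → Set (EuclideanSpace ℝ (Fin 2)), (∀ i, V i ⊆ U i) ∧ Dense (⋃ i, U i) ∧
        ∀ i, Maximal (fun W : Set (EuclideanSpace ℝ (Fin 2)) =>
          IsOpen W ∧ ∀ x ∈ W, ∀ y ∈ W, dist x y ≠ 1) (U i)) ∧
    (∀ U : Fin 6 → Set (EuclideanSpace ℝ (Fin 2)), Dense (⋃ i, U i) →
      (∀ i, Maximal (fun W : Set (EuclideanSpace ℝ (Fin 2)) =>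
        IsOpen W ∧ ∀ x ∈ W, ∀ y ∈ W, dist x y ≠ 1) (U i)) →
      (∃ z z', dist z z' = 1 ∧
        (∀ s : Set (Fin 6), s.ncard ≤ 4 → z ∈ closure ((⋃ j, U j) \ ⋃ i ∈ s, U i)) ∧
        ∀ s : Set (Fin 6), s.ncard ≤ 3 → z' ∈ closure ((⋃ j, U j) \ ⋃ i ∈ s, U i)) ∨
      (∃ z y1 y2 y3, ∃ S S1 S2 S3 : Set (Fin 6),
        (S.ncard = 4 ∧ z ∉ closure ((⋃ j, U j) \ ⋃ i ∈ S, U i) ∧
          ∀ s ⊂ S, z ∈ closure ((⋃ j, U j) \ ⋃ i ∈ s, U i)) ∧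
        (S1.ncard = 4 ∧ y1 ∉ closure ((⋃ j, U j) \ ⋃ i ∈ S1, U i) ∧
          ∀ s ⊂ S1, y1 ∈ closure ((⋃ j, U j) \ ⋃ i ∈ s, U i)) ∧
        (S2.ncard = 4 ∧ y2 ∉ closure ((⋃ j, U j) \ ⋃ i ∈ S2, U i) ∧
          ∀ s ⊂ S2, y2 ∈ closure ((⋃ j, U j) \ ⋃ i ∈ s, U i)) ∧
        (S3.ncard = 4 ∧ y3 ∉ closure ((⋃ j, U j) \ ⋃ i ∈ S3, U i) ∧
          ∀ s ⊂ S3, y3 ∈ closure ((⋃ j, U j) \ ⋃ i ∈ s, U i)) ∧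
        dist y1 z = 1 ∧ dist y2 z = 1 ∧ dist y3 z = 1 ∧ y1 ≠ y2 ∧ y1 ≠ y3 ∧ y2 ≠ y3)) :=
  ⟨ext_part, fun _ hd hU => exists_pair_star NC HX hU hd⟩

end Vale.Agent.P032.H154
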